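import Vale.Agent.P181.PL10.Core
import Vale.Agent.P181.H310.WReal
import Vale.Agent.P181.H54.Propagate

set_option autoImplicit false

/-!
# P181, PL, P10: the scan over `R`
-/

namespace Vale.Agent.P181.PL10

open Vale.Agent.P181.T4 (ex low)
open Vale.Agent.P181.H280 (plethMult)
open Vale.Agent.P181.PL

theorem few (a b n : ℕ) (lam : Fin n → ℕ) (h : dn lam 2 + 3 * a ≤ b) :
    plethMult a b n lam ≤ plethMult b a n lam := by
  apply H310.WG.w_all 0 lam
  have h3 : T7.cells 2 lam = dn lam 2 := rfl
  have h4 : ((T7.cells 2 lam + 3 * a : ℕ) : ℝ) ≤ b := by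
    rw [h3]
    exact_mod_cast h
  push_cast at h4
  simpa using h4

/-- **(P10)** the scan over `R`. -/
theorem scan_of (hH : HeavyS) (hL : LightS) : ScanS :=
  scan_core few (fun a b _ hab lam h => H54.foulkes_secondRow a b hab lam h) hH hL

end Vale.Agent.P181.PL10
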