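import Vale.Agent.P181.PL10.Scan
import Vale.Agent.P181.H467.NT.Defs
import Vale.Agent.P181.H463.Big
import Vale.Agent.P181.T7.Cells

set_option autoImplicit false

/-!
# P181, NT: the linear theorem from explicit numbers
-/

namespace Vale.Agent.P181.PL10

open Vale.Agent.P181.T4 (ex low)
open Vale.Agent.P181.H280 (plethMult)
open Vale.Agent.P181.PL

/-- It is enough to treat partitions with positive rows, at most `a` of them. -/
theorem trimQ {a b N : ℕ} (lam : Fin N → ℕ)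
    (h : ∀ (k : ℕ) (mu : Fin k → ℕ), Antitone mu → ∑ i, mu i = a * b → (∀ i, 0 < mu i) → k ≤ a →
      (∀ j, dn mu j = dn lam j) → plethMult a b k mu ≤ plethMult b a k mu) :
    plethMult a b N lam ≤ plethMult b a N lam := by
  by_cases hz : plethMult a b N lam = 0
  · rw [hz]
    exact Nat.zero_le _
  obtain ⟨hanti, hsum, hza⟩ := H530.zero_stmt a b N lam hz
  have hex' : ∃ k, k = N ∨ ex lam k = 0 := ⟨N, Or.inl rfl⟩
  obtain ⟨k, hk⟩ : ∃ k, k = Nat.find hex' := ⟨_, rfl⟩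
  have hkN : k ≤ N := by
    rw [hk]
    exact Nat.find_min' hex' (Or.inl rfl)
  have hpos : ∀ i, i < k → 0 < ex lam i := by
    intro i hi
    rw [hk] at hi
    have h1 := Nat.find_min hex' hi
    push Not at h1
    exact Nat.pos_of_ne_zero h1.2
  have hzero : ∀ i : Fin N, k ≤ (i : ℕ) → lam i = 0 := by
    intro i hi
    have h0 : k = N ∨ ex lam k = 0 := by
      rw [hk]
      exact Nat.find_spec hex'
    rcases h0 with h1 | h1
    · exact absurd i.2 (by omega)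
    · have h2 := exanti hanti hi
      rw [h1, exfin] at h2
      exact Nat.le_zero.1 h2
  have hka : k ≤ a := by
    by_contra hc
    have h1 := hpos a (by omega)
    rw [exlt lam (by omega : a < N), hza ⟨a, by omega⟩ le_rfl] at h1
    exact lt_irrefl _ h1
  clear hk
  obtain ⟨l, rfl⟩ := Nat.exists_eq_add_of_le hkN
  obtain ⟨mu, hmu⟩ : ∃ mu : Fin k → ℕ, mu = fun j => lam (Fin.castAdd l j) := ⟨_, rfl⟩
  have hlam' : lam = fun i : Fin (k + l) => if h : (i : ℕ) < k then mu ⟨i, h⟩ else 0 := by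
    funext i
    by_cases hi : (i : ℕ) < k
    · rw [dif_pos hi, hmu]
      rfl
    · rw [dif_neg hi]
      exact hzero i (by omega)
  have hmu1 : Antitone mu := by
    intro i j hij
    have hij' : (i : ℕ) ≤ j := hij
    rw [hmu]
    exact hanti (show Fin.castAdd l i ≤ Fin.castAdd l j from hij')
  have hmu2 : ∑ i, mu i = a * b := by
    rw [← hsum, Fin.sum_univ_add, hmu]
    have h2 : ∑ i : Fin l, lam (Fin.natAdd k i) = 0 := by
      apply Finset.sum_eq_zero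
      intro i _
      exact hzero _ (by simp)
    rw [h2, add_zero]
  have hmu3 : ∀ i, 0 < mu i := by
    intro i
    have h1 := hpos i i.2
    rw [exlt lam (show (i : ℕ) < k + l by omega)] at h1
    rw [hmu]
    exact h1
  have hdn : ∀ j, dn mu j = dn lam j := by
    intro j
    have h1 := T7.cells_pad (k := l) j mu
    rw [← hlam'] at h1
    exact h1.symm
  have h1 := h k mu hmu1 hmu2 hmu3 hka hdn
  rw [← H530.pad_stmt a b k l mu, ← H530.pad_stmt b a k l mu, ← hlam'] at h1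
  exact h1

/-- Powers of the logarithm are smaller than `a`. -/
lemma ev (K : ℝ) (hK : 0 < K) (m p : ℕ) :
    ∃ A0 : ℕ, ∀ a : ℕ, A0 ≤ a → (K * (1 + Real.log a) ^ m) ^ p ≤ (a : ℝ) := by
  have h1 : (fun x : ℝ => Real.log x ^ (m * p)) =o[Filter.atTop] id :=
    Real.isLittleO_pow_log_id_atTop
  have h2 := h1.bound (show 0 < (K ^ p * 2 ^ (m * p))⁻¹ by positivity)
  have h3 := tendsto_natCast_atTop_atTop (R := ℝ) |>.eventually h2
  obtain ⟨A0, hA0⟩ := Filter.eventually_atTop.1 (h3.and (Filter.eventually_ge_atTop 3))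
  refine ⟨A0, fun a ha => ?_⟩
  obtain ⟨h4, h5⟩ := hA0 a ha
  have ha3 : (3 : ℝ) ≤ a := by exact_mod_cast h5
  have hlog : 1 ≤ Real.log a := by
    rw [Real.le_log_iff_exp_le (by linarith)]
    have := Real.exp_one_lt_d9
    linarith
  rw [Real.norm_of_nonneg (by positivity), id, Real.norm_of_nonneg (by positivity)] at h4
  calc (K * (1 + Real.log a) ^ m) ^ p = K ^ p * (1 + Real.log a) ^ (m * p) := by
        rw [mul_pow, ← pow_mul]
    _ ≤ K ^ p * (2 * Real.log a) ^ (m * p) := by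
        apply mul_le_mul_of_nonneg_left _ (by positivity)
        exact pow_le_pow_left₀ (by linarith) (by linarith) _
    _ = (K ^ p * 2 ^ (m * p)) * Real.log a ^ (m * p) := by rw [mul_pow, mul_assoc]
    _ ≤ (K ^ p * 2 ^ (m * p)) * ((K ^ p * 2 ^ (m * p))⁻¹ * a) :=
        mul_le_mul_of_nonneg_left h4 (by positivity)
    _ = a := by rw [← mul_assoc, mul_inv_cancel₀ (by positivity), one_mul]

lemma num_q {K L w A x : ℝ} (q m : ℕ) (hw : 0 ≤ w) (hx0 : 0 ≤ x)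
    (hx : x ≤ K * L ^ m) (h : K ^ q * L ^ (m * q) * w ≤ A) : w * x ^ q ≤ A := by
  calc w * x ^ q ≤ w * (K * L ^ m) ^ q :=
        mul_le_mul_of_nonneg_left (pow_le_pow_left₀ hx0 hx q) hw
    _ = K ^ q * L ^ (m * q) * w := by
        rw [mul_pow, ← pow_mul]
        ring
    _ ≤ A := h

/-- The hypotheses of the linear line. -/
def HyL (a b n X : ℕ) (lam : Fin n → ℕ) : Prop :=
  Antitone lam ∧ ∑ i, lam i = a * b ∧ (∀ i, 0 < lam i) ∧ n ≤ a ∧ b ≤ a ^ 2 ∧ 5 * a ≤ b ∧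
    X ^ 20000 ≤ a ∧ 10 ^ 12 * (1 + Real.log a) ^ 7 ≤ X ∧ dn lam 1 * X ^ 12000 ≤ a ^ 2

/-- The ceiling of `10 ^ 12 (1 + log a) ^ m`. -/
lemma exists_X (a m : ℕ) : ∃ X : ℕ, 10 ^ 12 * (1 + Real.log a) ^ m ≤ (X : ℝ) ∧
    (X : ℝ) ≤ 2 * 10 ^ 12 * (1 + Real.log a) ^ m := by
  have hlog : 0 ≤ Real.log a := Real.log_natCast_nonneg a
  have h1 : (1 : ℝ) ≤ (1 + Real.log a) ^ m := one_le_pow₀ (by linarith)
  refine ⟨⌈10 ^ 12 * (1 + Real.log a) ^ m⌉₊, Nat.le_ceil _, ?_⟩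
  have h2 := Nat.ceil_lt_add_one (show 0 ≤ 10 ^ 12 * (1 + Real.log a) ^ m by positivity)
  nlinarith

/-- The last step with general exponents. -/
theorem lin_gen (p q m : ℕ) (H : ∀ (a b n X : ℕ) (lam : Fin n → ℕ), Antitone lam →
    ∑ i, lam i = a * b → (∀ i, 0 < lam i) → n ≤ a → b ≤ a ^ 2 → 5 * a ≤ b → X ^ p ≤ a →
    10 ^ 12 * (1 + Real.log a) ^ m ≤ X → dn lam 1 * X ^ q ≤ a ^ 2 →
    plethMult a b n lam ≤ plethMult b a n lam) :
    ∃ C : ℝ, 0 < C ∧ ∀ a b : ℕ, 5 * a ≤ b →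
      ∀ (n : ℕ) (lam : Fin n → ℕ), C * (1 + Real.log a) ^ (m * q) * (dn lam 1 : ℝ) ≤ (a : ℝ) ^ 2 →
      plethMult a b n lam ≤ plethMult b a n lam := by
  obtain ⟨K, hK⟩ : ∃ K : ℝ, K = 2 * 10 ^ 12 := ⟨_, rfl⟩
  have hK0 : 0 < K := by
    rw [hK]
    norm_num
  obtain ⟨A0, hA0⟩ := ev K hK0 m p
  have hKq : 0 < K ^ q := pow_pos hK0 _
  refine ⟨K ^ q + (A0 : ℝ) ^ 2, by positivity, ?_⟩
  intro a b hab n lam hw
  have hlog : 0 ≤ Real.log a := Real.log_natCast_nonneg a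
  have hL1 : (1 : ℝ) ≤ (1 + Real.log a) ^ (m * q) := one_le_pow₀ (by linarith)
  rcases lt_or_ge a A0 with ha | ha
  · -- small `a`: one row
    have h0 : dn lam 1 = 0 := by
      by_contra hne
      have h1 : (1 : ℝ) ≤ dn lam 1 := by exact_mod_cast Nat.one_le_iff_ne_zero.2 hne
      have h2 : (a : ℝ) ^ 2 < (A0 : ℝ) ^ 2 := by
        have : (a : ℝ) < A0 := by exact_mod_cast ha
        exact pow_lt_pow_left₀ this (Nat.cast_nonneg _) (by norm_num)
      have h5 : (0 : ℝ) ≤ K ^ q + (A0 : ℝ) ^ 2 := by positivity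
      have h6 : K ^ q + (A0 : ℝ) ^ 2 ≤ (K ^ q + (A0 : ℝ) ^ 2) * (1 + Real.log a) ^ (m * q) :=
        le_mul_of_one_le_right h5 hL1
      have h7 : (K ^ q + (A0 : ℝ) ^ 2) * (1 + Real.log a) ^ (m * q) ≤
          (K ^ q + (A0 : ℝ) ^ 2) * (1 + Real.log a) ^ (m * q) * (dn lam 1 : ℝ) :=
        le_mul_of_one_le_right (h5.trans h6) h1
      linarith
    have h1 := dn_anti lam (show 1 ≤ 2 by norm_num)
    exact few a b n lam (by omega)
  refine trimQ lam fun k mu hanti hsum hpos hka hdn => ?_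
  rcases le_or_gt ((a - 1) ^ 2) b with hb | hb
  · exact H463.big_stmt a b k mu hb
  have hb2 : b ≤ a ^ 2 := hb.le.trans (Nat.pow_le_pow_left (Nat.sub_le _ _) 2)
  obtain ⟨X, hX1, hX2⟩ := exists_X a m
  rw [← hK] at hX2
  refine H a b k X mu hanti hsum hpos hka hb2 hab ?_ hX1 ?_
  · have h1 : (X : ℝ) ^ p ≤ (K * (1 + Real.log a) ^ m) ^ p :=
      pow_le_pow_left₀ (Nat.cast_nonneg _) hX2 _
    have h2 := h1.trans (hA0 a ha)
    rw [← Nat.cast_pow] at h2
    exact Nat.cast_le.1 h2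
  · have h1 := num_q (w := (dn lam 1 : ℝ)) (A := (a : ℝ) ^ 2) q m
      (Nat.cast_nonneg _) (Nat.cast_nonneg X) hX2 (by
        refine le_trans ?_ hw
        apply mul_le_mul_of_nonneg_right _ (Nat.cast_nonneg _)
        apply mul_le_mul_of_nonneg_right _ (by positivity)
        have : (0 : ℝ) ≤ (A0 : ℝ) ^ 2 := by positivity
        linarith)
    rw [← Nat.cast_pow, ← Nat.cast_pow, ← Nat.cast_mul] at h1
    rw [hdn 1]
    exact Nat.cast_le.1 h1

/-- **NT2, the last step.** -/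
theorem lin_of (H : ∀ (a b n X : ℕ) (lam : Fin n → ℕ), HyL a b n X lam →
    plethMult a b n lam ≤ plethMult b a n lam) : H467.NT.LinS := by
  obtain ⟨C, hC, h⟩ := lin_gen 20000 12000 7
    (fun a b n X lam h1 h2 h3 h4 h5 h6 h7 h8 h9 =>
      H a b n X lam ⟨h1, h2, h3, h4, h5, h6, h7, h8, h9⟩)
  exact ⟨C, 7 * 12000, hC, h⟩

end Vale.Agent.P181.PL10
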