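import Vale.Agent.P181.PL.Basic

set_option autoImplicit false

/-!
# P181, PL, P10: the scan over `R`, from the two known classes of shapes
-/

namespace Vale.Agent.P181.PL10

open Vale.Agent.P181.T4 (ex low)
open Vale.Agent.P181.H280 (plethMult)
open Vale.Agent.P181.PL

/-- If `dn lam R < Y * ex lam R` on a long interval, the tail decays geometrically. -/
lemma decay {n : ℕ} (lam : Fin n → ℕ) (Y s t : ℕ)
    (h : ∀ R, s ≤ R → R < s + t → dn lam R < Y * ex lam R) :
    (dn lam (s + t) : ℝ) ≤ (1 - 1 / (Y : ℝ)) ^ t * dn lam s := by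
  induction t with
  | zero => simp
  | succ t ih =>
    have h1 := ih (fun R h1 h2 => h R h1 (by omega))
    have h2 := h (s + t) (by omega) (by omega)
    have h3 := dn_succ lam (s + t)
    have hY : 0 < Y := by
      rcases Nat.eq_zero_or_pos Y with h0 | h0
      · rw [h0, zero_mul] at h2
        omega
      · exact h0
    have hY' : (0 : ℝ) < Y := by exact_mod_cast hY
    have h2' : (dn lam (s + t) : ℝ) ≤ Y * ex lam (s + t) := by exact_mod_cast h2.le
    have h3' : (dn lam (s + t) : ℝ) = ex lam (s + t) + dn lam (s + t + 1) := by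
      exact_mod_cast h3
    have h4 : (dn lam (s + t) : ℝ) / Y ≤ ex lam (s + t) := by
      rw [div_le_iff₀ hY']
      linarith
    have h5 : (dn lam (s + t + 1) : ℝ) ≤ (1 - 1 / (Y : ℝ)) * dn lam (s + t) := by
      have h7 : (1 - 1 / (Y : ℝ)) * dn lam (s + t) =
          dn lam (s + t) - (dn lam (s + t) : ℝ) / Y := by ring
      rw [h7]
      linarith
    have h6 : (0 : ℝ) ≤ 1 - 1 / (Y : ℝ) := by
      have h8 : (1 : ℝ) / Y ≤ 1 := by
        rw [div_le_one hY']
        exact_mod_cast hY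
      linarith
    calc (dn lam (s + (t + 1)) : ℝ) = dn lam (s + t + 1) := by rw [add_assoc]
      _ ≤ (1 - 1 / (Y : ℝ)) * dn lam (s + t) := h5
      _ ≤ (1 - 1 / (Y : ℝ)) * ((1 - 1 / (Y : ℝ)) ^ t * dn lam s) :=
        mul_le_mul_of_nonneg_left h1 h6
      _ = (1 - 1 / (Y : ℝ)) ^ (t + 1) * dn lam s := by ring

lemma X_ge {a X : ℕ} (hX : 10 ^ 12 * (1 + Real.log a) ^ 7 ≤ (X : ℝ)) :
    10 ^ 12 * (1 + Real.log a) ≤ (X : ℝ) ∧ 10 ^ 12 ≤ X := by
  have hlog : 0 ≤ Real.log a := Real.log_natCast_nonneg a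
  have h1 : (1 : ℝ) + Real.log a ≤ (1 + Real.log a) ^ 7 :=
    le_self_pow₀ (by linarith) (by norm_num)
  have h2 : 10 ^ 12 * (1 + Real.log a) ≤ (X : ℝ) := by nlinarith
  refine ⟨h2, ?_⟩
  have h3 : (10 : ℝ) ^ 12 ≤ (X : ℝ) := by nlinarith
  exact_mod_cast h3

/-- The first spread row. -/
lemma exists_R {n a b X : ℕ} (lam : Fin n → ℕ) (hsum : ∑ i, lam i = a * b) (ha : 1 ≤ a)
    (hb : b ≤ a ^ 2) (hX : 10 ^ 12 * (1 + Real.log a) ^ 7 ≤ (X : ℝ)) :
    ∃ R, 3 ≤ R ∧ R ≤ X ^ 14 ∧ X ^ 13 * ex lam R ≤ dn lam R := by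
  by_contra hcon
  push Not at hcon
  obtain ⟨hX1, hX12⟩ := X_ge hX
  have hlog : 0 ≤ Real.log a := Real.log_natCast_nonneg a
  have hX0 : (0 : ℝ) < X := by
    have : (10 : ℝ) ^ 12 ≤ X := by exact_mod_cast hX12
    linarith
  have hX0' : 0 < X := by omega
  have h14 : 3 ≤ X ^ 14 := le_trans (by omega) (Nat.le_self_pow (by norm_num) X)
  obtain ⟨t, ht⟩ := Nat.exists_eq_add_of_le h14
  have hd := decay lam (X ^ 13) 3 t (fun R h1 h2 => hcon R h1 (by omega))
  have hR := hcon (3 + t) (by omega) (by omega)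
  have he := ex_le_dn lam (3 + t)
  have hpos : 1 ≤ dn lam (3 + t) := by
    by_contra h0
    have h1 : dn lam (3 + t) = 0 := by omega
    rw [h1] at he hR
    have h2 : ex lam (3 + t) = 0 := by omega
    rw [h2, mul_zero] at hR
    exact absurd hR (lt_irrefl _)
  have hd3 : dn lam 3 ≤ a ^ 3 := by
    have h1 := dn_anti lam (Nat.zero_le 3)
    rw [dn_zero, hsum] at h1
    calc dn lam 3 ≤ a * b := h1
      _ ≤ a * a ^ 2 := Nat.mul_le_mul_left _ hb
      _ = a ^ 3 := by ring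
  have ha0 : (0 : ℝ) < a := by exact_mod_cast ha
  have hexp : (a : ℝ) ^ 3 = Real.exp (3 * Real.log a) := by
    rw [mul_comm, Real.exp_mul, Real.exp_log ha0]
    norm_num
  have hy1 : (X : ℝ) ^ 13 ≤ X ^ 13 * X := by nlinarith [pow_pos hX0 13,
    (by exact_mod_cast hX0' : (1 : ℝ) ≤ X)]
  have hY1 : (1 : ℝ) ≤ (X : ℝ) ^ 13 := one_le_pow₀ (by exact_mod_cast hX0')
  have hb0 : (0 : ℝ) ≤ 1 - 1 / ((X ^ 13 : ℕ) : ℝ) := by
    have h8 : (1 : ℝ) / ((X ^ 13 : ℕ) : ℝ) ≤ 1 := by
      push_cast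
      rw [div_le_one (by positivity)]
      exact hY1
    linarith
  have h1 : (1 - 1 / ((X ^ 13 : ℕ) : ℝ)) ^ t ≤ Real.exp (-((X : ℝ) - 3)) := by
    calc (1 - 1 / ((X ^ 13 : ℕ) : ℝ)) ^ t ≤ (Real.exp (-(1 / ((X ^ 13 : ℕ) : ℝ)))) ^ t :=
          pow_le_pow_left₀ hb0 (Real.one_sub_le_exp_neg _) t
      _ = Real.exp (-((t : ℝ) / (X : ℝ) ^ 13)) := by
          rw [← Real.exp_nat_mul]
          congr 1
          push_cast
          ring
      _ ≤ Real.exp (-((X : ℝ) - 3)) := by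
          apply Real.exp_le_exp.2
          apply neg_le_neg
          rw [le_div_iff₀ (by positivity)]
          have h2 : (t : ℝ) = (X : ℝ) ^ 14 - 3 := by
            have h3 : ((X ^ 14 : ℕ) : ℝ) = ((3 + t : ℕ) : ℝ) := by rw [ht]
            push_cast at h3
            linarith
          rw [h2]
          have h4 : ((X : ℝ) - 3) * (X : ℝ) ^ 13 = (X : ℝ) ^ 14 - 3 * (X : ℝ) ^ 13 := by ring
          rw [h4]
          linarith
  have h2 : (1 : ℝ) ≤ Real.exp (-((X : ℝ) - 3)) * Real.exp (3 * Real.log a) := by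
    have h3 : (1 : ℝ) ≤ dn lam (3 + t) := by exact_mod_cast hpos
    have h4 : (dn lam 3 : ℝ) ≤ Real.exp (3 * Real.log a) := by
      rw [← hexp]
      exact_mod_cast hd3
    calc (1 : ℝ) ≤ dn lam (3 + t) := h3
      _ ≤ (1 - 1 / ((X ^ 13 : ℕ) : ℝ)) ^ t * dn lam 3 := hd
      _ ≤ Real.exp (-((X : ℝ) - 3)) * Real.exp (3 * Real.log a) :=
        mul_le_mul h1 h4 (Nat.cast_nonneg _) (Real.exp_pos _).le
  rw [← Real.exp_add] at h2
  have h3 : Real.exp (-((X : ℝ) - 3) + 3 * Real.log a) < 1 := by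
    rw [Real.exp_lt_one_iff]
    nlinarith
  linarith

/-- **(P10)** from the two known classes: few cells below the second row, short second row. -/
theorem scan_core
    (hFew : ∀ (a b n : ℕ) (lam : Fin n → ℕ), dn lam 2 + 3 * a ≤ b →
      plethMult a b n lam ≤ plethMult b a n lam)
    (hSec : ∀ (a b m : ℕ), a ≤ b → ∀ lam : Fin (m + 1) → ℕ,
      (∀ i : Fin (m + 1), i ≠ 0 → lam i ≤ a) →
      plethMult a b (m + 1) lam ≤ plethMult b a (m + 1) lam)
    (hH : HeavyS) (hL : LightS) : ScanS := by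
  intro a b n X lam hanti hsum hpos hna hb hbX haX hX
  obtain ⟨hX1, hX12⟩ := X_ge hX
  have hX0 : 0 < X := by omega
  have ha1 : 1 ≤ a := le_trans (Nat.one_le_pow _ _ hX0) haX
  have hb1 : a * X ≤ b :=
    le_trans (Nat.mul_le_mul_left _ (Nat.le_self_pow (by norm_num) X)) hbX
  have hb6 : 6 * a ≤ b := by
    calc 6 * a ≤ X * a := Nat.mul_le_mul_right _ (by omega)
      _ = a * X := mul_comm _ _
      _ ≤ b := hb1
  rcases lt_or_ge (2 * dn lam 2) b with h2 | h2
  · exact hFew a b n lam (by omega)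
  rcases le_or_gt (ex lam 1) a with h1 | h1
  · cases n with
    | zero =>
      exfalso
      rw [Finset.univ_eq_empty, Finset.sum_empty] at hsum
      have h3 : 0 < a * b := Nat.mul_pos ha1 (by omega)
      omega
    | succ m =>
      refine hSec a b m (by omega) lam (fun i hi => ?_)
      have h3 : 1 ≤ (i : ℕ) := by
        rcases Nat.eq_zero_or_pos (i : ℕ) with h0 | h0
        · exact absurd (Fin.ext h0) hi
        · exact h0
      have h4 := exanti hanti h3
      rw [exfin] at h4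
      omega
  have hy : Hy a b n X lam := ⟨hanti, hsum, hpos, hna, hb, hbX, haX, hX, h2, h1⟩
  obtain ⟨R, hR3, hRX, hs⟩ := exists_R lam hsum ha1 hb hX
  rcases le_or_gt (X ^ 2550 * dn lam R) (ex lam 2) with hl | hl
  · exact hL a b n X R lam hy hR3 hRX hl
  have hRn : R < n := by
    by_contra h
    rw [dn_ge lam (by omega), mul_zero] at hl
    omega
  refine hH a b n X R lam hy hR3 hRn hRX hs ?_
  have h3 := dn_le hanti 2 (R - 2)
  rw [show 2 + (R - 2) = R by omega] at h3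
  calc dn lam 2 ≤ dn lam R + (R - 2) * ex lam 2 := h3
    _ ≤ 1 * dn lam R + X ^ 14 * (X ^ 2550 * dn lam R) := by
        rw [one_mul]
        exact Nat.add_le_add_left (Nat.mul_le_mul (by omega) hl.le) _
    _ = (1 + X ^ 2564) * dn lam R := by
        rw [show (2564 : ℕ) = 14 + 2550 by norm_num, pow_add]
        ring
    _ ≤ X ^ 2600 * dn lam R := by
        apply Nat.mul_le_mul_right
        calc 1 + X ^ 2564 ≤ X ^ 2564 + X ^ 2564 :=
              Nat.add_le_add_right (Nat.one_le_pow _ _ hX0) _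
          _ = 2 * X ^ 2564 := by ring
          _ ≤ X * X ^ 2564 := Nat.mul_le_mul_right _ (by omega)
          _ = X ^ (2564 + 1) := (pow_succ' _ _).symm
          _ ≤ X ^ 2600 := Nat.pow_le_pow_right hX0 (by norm_num)

end Vale.Agent.P181.PL10
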